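import Mathlib

/-!
# Generation of equivariant modules by the vectors of spin `0` and `1/2`
-/

set_option linter.all false

namespace Vale.Agent.P286ES

open Module Complex

variable {M : Type*} [AddCommGroup M] [Module ℂ M]

/-- The operators `E`, `F`, `H` satisfy the relations of `sl₂`. -/
structure Sl (E F H : End ℂ M) : Prop where
  he : ∀ x, H (E x) = E (H x) + (2 : ℂ) • E x
  hf : ∀ x, H (F x) = F (H x) - (2 : ℂ) • F x
  ef : ∀ x, E (F x) = F (E x) + H x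

/-- The spherical components of a vector operator. -/
structure Sph (E F H P Z N : End ℂ M) : Prop where
  hp : ∀ x, H (P x) = P (H x) + (2 : ℂ) • P x
  hz : ∀ x, H (Z x) = Z (H x)
  hn : ∀ x, H (N x) = N (H x) - (2 : ℂ) • N x
  ep : ∀ x, E (P x) = P (E x)
  ez : ∀ x, E (Z x) = Z (E x) - P x
  en : ∀ x, E (N x) = N (E x) + (2 : ℂ) • Z x
  fp : ∀ x, F (P x) = P (F x) - (2 : ℂ) • Z x
  fz : ∀ x, F (Z x) = Z (F x) + N x
  dot : ∀ x, P (F x) + N (E x) + Z (H x) = 0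

/-- A vector of highest weight `μ`. -/
structure Hw (E H : End ℂ M) (μ : ℂ) (m : M) : Prop where
  e : E m = 0
  h : H m = μ • m

variable {E F H P Z N P' Z' N' : End ℂ M}

theorem smul_cancel {c : ℂ} (hc : c ≠ 0) {x : M} (h : c • x = 0) : x = 0 :=
  (smul_eq_zero.1 h).resolve_left hc

theorem Hw.ef (s : Sl E F H) {μ : ℂ} {m : M} (h : Hw E H μ m) : E (F m) = μ • m := by
  rw [s.ef, h.e, map_zero, zero_add, h.h]

theorem Hw.hf (s : Sl E F H) {μ : ℂ} {m : M} (h : Hw E H μ m) : H (F m) = (μ - 2) • F m := by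
  rw [s.hf, h.h, map_smul, sub_smul]

theorem Hw.eff (s : Sl E F H) {μ : ℂ} {m : M} (h : Hw E H μ m) :
    E (F (F m)) = (2 * μ - 2) • F m := by
  rw [s.ef, h.ef s, h.hf s, map_smul]
  module

theorem Hw.hff (s : Sl E F H) {μ : ℂ} {m : M} (h : Hw E H μ m) :
    H (F (F m)) = (μ - 4) • F (F m) := by
  rw [s.hf, h.hf s, map_smul]
  module

theorem Sph.hw (t : Sph E F H P Z N) {μ : ℂ} {m : M} (h : Hw E H μ m) : Hw E H (μ + 2) (P m) :=
  ⟨by rw [t.ep, h.e, map_zero], by rw [t.hp, h.h, map_smul, add_smul]⟩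

theorem Sph.low (s : Sl E F H) (t : Sph E F H P Z N) {μ : ℂ} {m : M} (h : Hw E H μ m)
    (hμ : μ ≠ 0) (h0 : ∀ v, Hw E H (μ - 2) v → v = 0) :
    F (P m) = -((μ + 2) • Z m) ∧ F (F (P m)) = -(((μ + 1) * (μ + 2)) • N m) := by
  have h1 := t.dot m
  rw [h.e, h.h, map_zero, add_zero, map_smul] at h1
  have h2 := h0 (-((μ * (μ - 1)) • N m) + (2 * μ - 2) • Z (F m) + P (F (F m))) ⟨by
    simp only [map_add, map_neg, map_smul, t.en, t.ez, t.ep, h.e, h.ef s, h.eff s, map_zero]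
    module, by
    simp only [map_add, map_neg, map_smul, t.hn, t.hz, t.hp, h.h, h.hf s, h.hff s]
    module⟩
  have h3 := t.dot (F m)
  rw [h.ef s, h.hf s, map_smul, map_smul] at h3
  have h4 : Z (F m) = μ • N m := by
    refine sub_eq_zero.1 (smul_cancel hμ ?_)
    linear_combination (norm := module) h2 - h3
  have h5 : F (P m) = -((μ + 2) • Z m) := by
    rw [t.fp]
    linear_combination (norm := module) h1
  refine ⟨h5, ?_⟩
  rw [h5, map_neg, map_smul, t.fz, h4]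
  module

theorem Sph.ra (s : Sl E F H) (t' : Sph E F H P' Z' N') {μ : ℂ} {m : M} (h : Hw E H (μ + 2) m) :
    P' (F (F m)) + μ • Z' (F m) + (μ + 2) • N' m = 0 := by
  have h3 := t'.dot (F m)
  rw [h.ef s, h.hf s, map_smul, map_smul] at h3
  linear_combination (norm := module) h3

theorem Sph.ffp (t : Sph E F H P Z N) (m : M) :
    F (F (P m)) = P (F (F m)) - (4 : ℂ) • Z (F m) - (2 : ℂ) • N m := by
  rw [t.fp m, map_sub, map_smul, t.fp, t.fz]
  module

/-- The square of a commuting vector operator kills the vectors of minimal nonzero weight. -/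
theorem Sph.sq (s : Sl E F H) (t : Sph E F H P Z N) {μ : ℂ} {m : M} (h : Hw E H μ m)
    (hμ : μ ≠ 0) (hμ2 : μ + 2 ≠ 0) (h0 : ∀ v, Hw E H (μ - 2) v → v = 0)
    (c : N (P m) = P (N m)) : P (N m) + Z (Z m) = 0 := by
  obtain ⟨h1, h2⟩ := t.low s h hμ h0
  have h3 := t.ra s (t.hw h)
  rw [h2, h1, c, map_neg, map_neg, map_smul, map_smul] at h3
  refine smul_cancel (mul_ne_zero hμ hμ2) ?_
  linear_combination (norm := module) -h3

/-- The commutator of two vector operators kills the vectors of minimal weight. -/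
theorem Sph.comm (s : Sl E F H) (t : Sph E F H P Z N) (t' : Sph E F H P' Z' N') {μ : ℂ} {m : M}
    (h : Hw E H μ m) (hμ : μ ≠ 0) (hμ1 : μ - 1 ≠ 0) (hμ2 : μ + 2 ≠ 0) (hμ4 : μ + 4 ≠ 0)
    (h0 : ∀ v, Hw E H (μ - 2) v → v = 0) {w : M} (c0 : P' (P m) = P (P' m))
    (c1 : P' (N m) = N (P' m) + (2 : ℂ) • w) (c2 : N' (P m) = P (N' m) + (2 : ℂ) • w)
    (c3 : Z' (Z m) = Z (Z' m) + w) : w = 0 := by
  obtain ⟨h1, h2⟩ := t.low s h hμ h0
  obtain ⟨h1', h2'⟩ := t'.low s h hμ h0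
  have ra := t'.ra s (t.hw h)
  have rb := t.ra s (t'.hw h)
  have fa := t'.ffp (P m)
  rw [c0, t.ffp (P' m)] at fa
  rw [h2, h1] at ra fa
  rw [h2', h1'] at rb fa
  simp only [map_neg, map_smul, c1, c2, c3] at ra rb fa
  have e1 : (μ + 2) • (N (P' m) - P (N' m)) + (3 * μ) • w = 0 := by
    refine smul_cancel hμ2 ?_
    linear_combination (norm := module) rb - ra
  have e2 : (μ + 3) • (N (P' m) - P (N' m)) + (2 * (μ + 1)) • w = 0 := by
    refine smul_cancel hμ ?_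
    linear_combination (norm := module) fa
  refine smul_cancel (mul_ne_zero hμ4 hμ1) ?_
  linear_combination (norm := module) (μ + 3) • e1 - (μ + 2) • e2

/-! ### Locally finite modules -/

theorem fin_eig (A : End ℂ M) (W : Submodule ℂ M) [FiniteDimensional ℂ W] (v : ℕ → M)
    (hW : ∀ k, v k ∈ W) (μ c : ℂ) (hc : c ≠ 0) (hv : ∀ k, A (v k) = (μ + c * k) • v k) :
    ∃ k, v k = 0 := by
  by_contra hne
  push Not at hne
  have hinj : Function.Injective fun k : ℕ => μ + c * k := fun a b hab => by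
    simpa [hc] using hab
  have hli := A.eigenvectors_linearIndependent' _ hinj v fun k =>
    ⟨End.mem_eigenspace_iff.2 (hv k), hne k⟩
  have hli' : LinearIndependent ℂ fun k : ℕ => (⟨v k, hW k⟩ : W) :=
    LinearIndependent.of_comp W.subtype hli
  have := hli'.finite
  exact not_finite ℕ

/-- Every vector lies in a finite dimensional stable subspace. -/
def Lf (E F H : End ℂ M) : Prop := ∀ m, ∃ W : Submodule ℂ M, FiniteDimensional ℂ W ∧ m ∈ W ∧
  ∀ x ∈ W, E x ∈ W ∧ F x ∈ W ∧ H x ∈ W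

theorem Hw.pow (s : Sl E F H) {μ : ℂ} {m : M} (h : Hw E H μ m) (k : ℕ) :
    H ((F ^ k) m) = (μ + (-2) * k) • (F ^ k) m ∧
      E ((F ^ (k + 1)) m) = ((k + 1) * (μ - k)) • (F ^ k) m := by
  induction k with
  | zero => exact ⟨by simp [h.h], by simp [h.ef s]⟩
  | succ k ih =>
    have h1 : H ((F ^ (k + 1)) m) = (μ + (-2) * (k + 1 : ℕ)) • (F ^ (k + 1)) m := by
      rw [pow_succ', End.mul_apply, s.hf, ih.1, map_smul]
      push_cast
      module
    refine ⟨h1, ?_⟩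
    rw [pow_succ' F (k + 1), End.mul_apply, s.ef, ih.2, h1, map_smul, pow_succ', End.mul_apply]
    push_cast
    module

theorem Hw.nat (s : Sl E F H) (l : Lf E F H) {μ : ℂ} {m : M} (h : Hw E H μ m) (hm : m ≠ 0) :
    ∃ n : ℕ, μ = n := by
  obtain ⟨W, hW, hmW, hs⟩ := l m
  have hk : ∀ k : ℕ, (F ^ k) m ∈ W := fun k => by
    induction k with
    | zero => exact hmW
    | succ k ih => rw [pow_succ', End.mul_apply]; exact (hs _ ih).2.1
  obtain ⟨n, h1, h2⟩ := Nat.exists_not_and_succ_of_not_zero_of_exists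
    (p := fun k => (F ^ k) m = 0) hm
    (fin_eig H W (fun k => (F ^ k) m) hk μ (-2) (by norm_num) fun k => (h.pow s k).1)
  have h3 := (h.pow s n).2
  rw [h2, map_zero] at h3
  have h4 := (smul_eq_zero.1 h3.symm).resolve_right h1
  exact ⟨n, sub_eq_zero.1 ((mul_eq_zero.1 h4).resolve_left (Nat.cast_add_one_ne_zero n))⟩

theorem exists_hw (s : Sl E F H) (l : Lf E F H) {m : M} (hm : m ≠ 0) :
    ∃ (n : ℕ) (v : M), v ≠ 0 ∧ Hw E H n v := by
  obtain ⟨W, hW, hmW, hs⟩ := l m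
  have : Nontrivial W := ⟨⟨⟨m, hmW⟩, 0, fun h => hm (congrArg Subtype.val h)⟩⟩
  obtain ⟨μ, hμ⟩ := End.exists_eigenvalue (H.restrict fun x hx => (hs x hx).2.2)
  obtain ⟨u, hu⟩ := hμ.exists_hasEigenvector
  have hu1 : H u = μ • (u : M) := congrArg Subtype.val hu.apply_eq_smul
  have hk : ∀ k : ℕ, (E ^ k) u ∈ W ∧ H ((E ^ k) u) = (μ + 2 * k) • (E ^ k) (u : M) := fun k => by
    induction k with
    | zero => exact ⟨u.2, by simp [hu1]⟩
    | succ k ih =>
      rw [pow_succ', End.mul_apply]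
      refine ⟨(hs _ ih.1).1, ?_⟩
      rw [s.he, ih.2, map_smul]
      push_cast
      module
  obtain ⟨n, h1, h2⟩ := Nat.exists_not_and_succ_of_not_zero_of_exists
    (p := fun k => (E ^ k) (u : M) = 0) (fun h => hu.2 (Subtype.ext h))
    (fin_eig H W (fun k => (E ^ k) (u : M)) (fun k => (hk k).1) μ 2 two_ne_zero fun k => (hk k).2)
  have h3 : Hw E H (μ + 2 * n) ((E ^ n) (u : M)) :=
    ⟨by rw [← End.mul_apply, ← pow_succ']; exact h2, (hk n).2⟩
  obtain ⟨j, hj⟩ := h3.nat s l h1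
  exact ⟨j, _, h1, hj ▸ h3⟩

theorem Hw.neg (s : Sl E F H) (l : Lf E F H) {k : ℕ} {m : M} (h : Hw E H (-((k : ℂ) + 1)) m) :
    m = 0 := by
  by_contra hm
  obtain ⟨n, hn⟩ := h.nat s l hm
  have h1 : ((n + k + 1 : ℕ) : ℂ) = 0 := by
    push_cast
    linear_combination -hn
  exact Nat.succ_ne_zero _ (Nat.cast_eq_zero.1 h1)

theorem Hw.f_zero (s : Sl E F H) (l : Lf E F H) {m : M} (h : Hw E H 0 m) : F m = 0 :=
  Hw.neg s l (k := 1) ⟨by rw [h.ef s, zero_smul], by rw [h.hf s]; norm_num⟩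

/-- A locally finite module vanishes if there are no vectors of the highest weights `0`, `1`, and
highest weight vectors of weight `n + 2` vanish if those of weight `n` do. -/
theorem gen_of (s : Sl E F H) (l : Lf E F H) (h0 : ∀ m, Hw E H 0 m → m = 0)
    (h1 : ∀ m, Hw E H 1 m → m = 0)
    (h2 : ∀ n : ℕ, (∀ v, Hw E H n v → v = 0) → ∀ m, Hw E H (n + 2) m → m = 0) (m : M) : m = 0 := by
  have h : ∀ n : ℕ, ∀ v, Hw E H n v → v = 0 := fun n => by
    induction n using Nat.twoStepInduction with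
    | zero => simpa using h0
    | one => simpa using h1
    | more n ih _ => simpa using h2 n ih
  by_contra hm
  obtain ⟨n, v, hv, hw⟩ := exists_hw s l hm
  exact hv (h n v hw)

/-! ### Cartesian components -/

/-- The operators `T a` form a vector operator for the infinitesimal rotations `L a`. -/
structure Vec (L T : Fin 3 → End ℂ M) : Prop where
  c0 : ∀ a x, L a (T a x) = T a (L a x)
  c1 : ∀ a x, L a (T (a + 1) x) = T (a + 1) (L a x) + T (a + 2) x
  c2 : ∀ a x, L a (T (a + 2) x) = T (a + 2) (L a x) - T (a + 1) x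

/-- The raising component. -/
noncomputable def up (T : Fin 3 → End ℂ M) : End ℂ M := T 0 + I • T 1

/-- The lowering component. -/
noncomputable def dn (T : Fin 3 → End ℂ M) : End ℂ M := T 0 - I • T 1

/-- The raising operator. -/
noncomputable def oE (L : Fin 3 → End ℂ M) : End ℂ M := I • up L

/-- The lowering operator. -/
noncomputable def oF (L : Fin 3 → End ℂ M) : End ℂ M := I • dn L

/-- The weight operator. -/
noncomputable def oH (L : Fin 3 → End ℂ M) : End ℂ M := (2 * I) • L 2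

variable {L T y ξ : Fin 3 → End ℂ M}

theorem up_apply (x : M) : up T x = T 0 x + I • T 1 x := rfl
theorem dn_apply (x : M) : dn T x = T 0 x - I • T 1 x := rfl
theorem oE_apply (x : M) : oE L x = I • (L 0 x + I • L 1 x) := rfl
theorem oF_apply (x : M) : oF L x = I • (L 0 x - I • L 1 x) := rfl
theorem oH_apply (x : M) : oH L x = (2 * I) • L 2 x := rfl

theorem I_cube : I ^ 3 = -I := I_pow_three

theorem Vec.sph (h : Vec L T) (hd : ∀ x, T 0 (L 0 x) + T 1 (L 1 x) + T 2 (L 2 x) = 0) :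
    Sph (oE L) (oF L) (oH L) (up T) (T 2) (dn T) := by
  have a00 := h.c0 0
  have a11 := h.c0 1
  have a22 := h.c0 2
  have a01 : ∀ x, L 0 (T 1 x) = T 1 (L 0 x) + T 2 x := h.c1 0
  have a02 : ∀ x, L 0 (T 2 x) = T 2 (L 0 x) - T 1 x := h.c2 0
  have a12 : ∀ x, L 1 (T 2 x) = T 2 (L 1 x) + T 0 x := h.c1 1
  have a10 : ∀ x, L 1 (T 0 x) = T 0 (L 1 x) - T 2 x := h.c2 1
  have a20 : ∀ x, L 2 (T 0 x) = T 0 (L 2 x) + T 1 x := h.c1 2
  have a21 : ∀ x, L 2 (T 1 x) = T 1 (L 2 x) - T 0 x := h.c2 2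
  refine ⟨?_, ?_, ?_, ?_, ?_, ?_, ?_, ?_, fun x => ?_⟩
  rotate_right
  · have h2 : T 2 (L 2 x) = -(T 0 (L 0 x) + T 1 (L 1 x)) := eq_neg_of_add_eq_zero_right (hd x)
    simp only [up_apply, dn_apply, oE_apply, oF_apply, oH_apply, map_add, map_sub, map_smul, h2]
    match_scalars <;> ring_nf <;> simp only [I_sq, I_cube] <;> ring
  all_goals
    intro x
    simp only [up_apply, dn_apply, oE_apply, oF_apply, oH_apply, map_add, map_sub, map_smul,
      a00, a11, a22, a01, a02, a12, a10, a20, a21] <;>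
    match_scalars <;> ring_nf <;> simp only [I_sq, I_cube] <;> ring

theorem Vec.sl (h : Vec L L) : Sl (oE L) (oF L) (oH L) := by
  have a10 : ∀ x, L 1 (L 0 x) = L 0 (L 1 x) - L 2 x := h.c2 1
  have a20 : ∀ x, L 2 (L 0 x) = L 0 (L 2 x) + L 1 x := h.c1 2
  have a21 : ∀ x, L 2 (L 1 x) = L 1 (L 2 x) - L 0 x := h.c2 2
  refine ⟨?_, ?_, ?_⟩
  all_goals
    intro x
    simp only [oE_apply, oF_apply, oH_apply, map_add, map_sub, map_smul, a10, a20, a21]
    match_scalars <;> ring_nf <;> simp only [I_sq, I_cube] <;> ring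

/-- The action of the rotations is locally finite. -/
def LF (L : Fin 3 → End ℂ M) : Prop := ∀ m, ∃ W : Submodule ℂ M, FiniteDimensional ℂ W ∧ m ∈ W ∧
  ∀ a, ∀ x ∈ W, L a x ∈ W

theorem LF.lf (h : LF L) : Lf (oE L) (oF L) (oH L) := fun m => by
  obtain ⟨W, hW, hm, hs⟩ := h m
  exact ⟨W, hW, hm, fun x hx =>
    ⟨W.smul_mem _ (W.add_mem (hs 0 x hx) (W.smul_mem _ (hs 1 x hx))),
      W.smul_mem _ (W.sub_mem (hs 0 x hx) (W.smul_mem _ (hs 1 x hx))), W.smul_mem _ (hs 2 x hx)⟩⟩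

/-- The vector `m` has spin `n / 2` and is of highest weight. -/
abbrev HW (L : Fin 3 → End ℂ M) (n : ℂ) (m : M) : Prop := Hw (oE L) (oH L) n m

theorem HW.inv (hL : Vec L L) (l : LF L) {m : M} (h : HW L 0 m) (a : Fin 3) : L a m = 0 := by
  have h1 := h.e
  have h2 := Hw.f_zero hL.sl l.lf h
  have h3 := h.h
  rw [oE_apply] at h1
  rw [oF_apply] at h2
  rw [oH_apply, zero_smul] at h3
  have h4 := smul_cancel I_ne_zero h1
  have h5 := smul_cancel I_ne_zero h2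
  fin_cases a
  · refine smul_cancel (two_ne_zero (α := ℂ)) ?_
    change (2 : ℂ) • L 0 m = 0
    linear_combination (norm := module) h4 + h5
  · refine smul_cancel (mul_ne_zero (two_ne_zero (α := ℂ)) I_ne_zero) ?_
    change (2 * I) • L 1 m = 0
    linear_combination (norm := module) h4 - h5
  · exact smul_cancel (mul_ne_zero (two_ne_zero (α := ℂ)) I_ne_zero) h3

theorem nat_ne (n k : ℕ) : (n : ℂ) + (k + 1 : ℕ) ≠ 0 := by
  rw [← Nat.cast_add]
  exact Nat.cast_ne_zero.2 (Nat.succ_ne_zero _)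

/-- The commuting vector operator `y` with `y · L = 0`. -/
structure Pos (L y : Fin 3 → End ℂ M) : Prop where
  vec : Vec L y
  comm : ∀ a b x, y a (y b x) = y b (y a x)
  dot : ∀ x, y 0 (L 0 x) + y 1 (L 1 x) + y 2 (L 2 x) = 0

/-- The square of `y`. -/
def qq (y : Fin 3 → End ℂ M) (m : M) : M := y 0 (y 0 m) + y 1 (y 1 m) + y 2 (y 2 m)

theorem Pos.q_zero (hL : Vec L L) (h : Pos L y) {μ : ℂ} {m : M} (hm : HW L μ m) (hμ : μ ≠ 0)
    (hμ2 : μ + 2 ≠ 0) (h0 : ∀ v, HW L (μ - 2) v → v = 0) : qq y m = 0 := by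
  have h1 := (h.vec.sph h.dot).sq hL.sl hm hμ hμ2 h0 (by
    simp only [up_apply, dn_apply, map_add, map_sub, map_smul, h.comm 1 0]
    module)
  rw [← h1, qq]
  simp only [up_apply, dn_apply, map_sub, map_smul, h.comm 1 0]
  match_scalars <;> ring_nf <;> simp only [I_sq] <;> ring

/-- The square of `y` kills the vectors of spin `1/2`. -/
theorem Pos.q_half (hL : Vec L L) (l : LF L) (h : Pos L y) {m : M} (hm : HW L 1 m) : qq y m = 0 :=
  h.q_zero hL hm one_ne_zero (by norm_num) fun v hv =>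
    Hw.neg hL.sl l.lf (k := 0) (by convert hv using 1; norm_num)

theorem Pos.phi_zero (hL : Vec L L) (h : Pos L y) (hξ : Vec L ξ)
    (hd : ∀ x, ξ 0 (L 0 x) + ξ 1 (L 1 x) + ξ 2 (L 2 x) = 0) {φ : M → M}
    (c : ∀ a x, ξ a (y a x) = y a (ξ a x) + φ x)
    (c' : ∀ a b, a ≠ b → ∀ x, ξ a (y b x) = y b (ξ a x)) {n : ℕ} {m : M} (hm : HW L (n + 2) m)
    (h0 : ∀ v, HW L n v → v = 0) : φ m = 0 := by
  have c01 := c' 0 1 (by decide)
  have c10 := c' 1 0 (by decide)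
  refine (h.vec.sph h.dot).comm hL.sl (hξ.sph hd) hm (by exact_mod_cast nat_ne n 1)
    (by convert nat_ne n 0 using 1; push_cast; ring) (by convert nat_ne n 3 using 1; push_cast; ring)
    (by convert nat_ne n 5 using 1; push_cast; ring) (by simpa using h0) ?_ ?_ ?_ (c 2 m)
  all_goals
    simp only [up_apply, dn_apply, map_add, map_sub, map_smul, c, c01, c10]
    match_scalars <;> ring_nf <;> simp only [I_sq] <;> ring

/-- Generation where the square of `y` is injective. -/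
theorem gen_unit (hL : Vec L L) (l : LF L) (h : Pos L y) (hq : ∀ m, qq y m = 0 → m = 0)
    (h0 : ∀ m, (∀ a, L a m = 0) → m = 0) (m : M) : m = 0 :=
  gen_of hL.sl l.lf (fun m hm => h0 m (HW.inv hL l hm)) (fun m hm => hq m (h.q_half hL l hm))
    (fun n hn m hm => hq m (h.q_zero hL hm (by exact_mod_cast nat_ne n 1)
      (by convert nat_ne n 3 using 1; push_cast; ring) (by simpa using hn))) m

/-- Generation by the vectors of spin `0` and `1/2`. -/
theorem gen (hL : Vec L L) (l : LF L) (h : Pos L y) (hξ : Vec L ξ)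
    (hd : ∀ x, ξ 0 (L 0 x) + ξ 1 (L 1 x) + ξ 2 (L 2 x) = 0) {φ : M → M}
    (c : ∀ a x, ξ a (y a x) = y a (ξ a x) + φ x)
    (c' : ∀ a b, a ≠ b → ∀ x, ξ a (y b x) = y b (ξ a x))
    (hq : ∀ m, qq y m = 0 → φ m = 0 → m = 0)
    (h0 : ∀ m, (∀ a, L a m = 0) → m = 0) (h1 : ∀ m, HW L 1 m → m = 0) (m : M) : m = 0 :=
  gen_of hL.sl l.lf (fun m hm => h0 m (HW.inv hL l hm)) h1
    (fun n hn m hm => hq m (h.q_zero hL hm (by exact_mod_cast nat_ne n 1)
      (by convert nat_ne n 3 using 1; push_cast; ring) (by simpa using hn))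
      (h.phi_zero hL hξ hd c c' hm hn)) m

/-- The relations between the vector fields on `{|y|² = f(u)}`: `φ = f'`, `ψ = 2 f''`,
`ξ_a = f' ∂_a + 2 y_a ∂_u`, `L_a = y_(a+2) ∂_(a+1) - y_(a+1) ∂_(a+2)`. -/
structure Tan (L y ξ : Fin 3 → End ℂ M) (φ ψ : End ℂ M) : Prop where
  vec : Vec L ξ
  c : ∀ a x, ξ a (y a x) = y a (ξ a x) + φ x
  c' : ∀ a b, a ≠ b → ∀ x, ξ a (y b x) = y b (ξ a x)
  φL : ∀ a x, L a (φ x) = φ (L a x)
  φy : ∀ a x, y a (φ x) = φ (y a x)
  ψy : ∀ a x, y a (ψ x) = ψ (y a x)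
  rot : ∀ a x, φ (L a x) = y (a + 2) (ξ (a + 1) x) - y (a + 1) (ξ (a + 2) x)
  ξφ : ∀ a x, ξ a (φ x) = φ (ξ a x) + ψ (y a x)
  ξξ : ∀ a x, ξ (a + 1) (ξ (a + 2) x) = ξ (a + 2) (ξ (a + 1) x) - ψ (L a x)

theorem Tan.dot {φ ψ : End ℂ M} (h : Pos L y) (t : Tan L y ξ φ ψ) (x : M) :
    φ (ξ 0 (L 0 x)) + φ (ξ 1 (L 1 x)) + φ (ξ 2 (L 2 x)) = 0 := by
  have r0 : φ (L 0 x) = y 2 (ξ 1 x) - y 1 (ξ 2 x) := t.rot 0 x
  have r1 : φ (L 1 x) = y 0 (ξ 2 x) - y 2 (ξ 0 x) := t.rot 1 x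
  have r2 : φ (L 2 x) = y 1 (ξ 0 x) - y 0 (ξ 1 x) := t.rot 2 x
  have s0 : ξ 1 (ξ 2 x) = ξ 2 (ξ 1 x) - ψ (L 0 x) := t.ξξ 0 x
  have s1 : ξ 2 (ξ 0 x) = ξ 0 (ξ 2 x) - ψ (L 1 x) := t.ξξ 1 x
  have s2 : ξ 0 (ξ 1 x) = ξ 1 (ξ 0 x) - ψ (L 2 x) := t.ξξ 2 x
  have e0 := t.ξφ 0 (L 0 x)
  have e1 := t.ξφ 1 (L 1 x)
  have e2 := t.ξφ 2 (L 2 x)
  rw [r0, map_sub, t.c' 0 2 (by decide), t.c' 0 1 (by decide), s2, map_sub, t.ψy] at e0
  rw [r1, map_sub, t.c' 1 0 (by decide), t.c' 1 2 (by decide), s0, map_sub, t.ψy] at e1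
  rw [r2, map_sub, t.c' 2 1 (by decide), t.c' 2 0 (by decide), s1, map_sub, t.ψy] at e2
  have hd := congrArg ψ (h.dot x)
  rw [map_add, map_add, map_zero] at hd
  linear_combination (norm := module) -e0 - e1 - e2 - (2 : ℂ) • hd

/-- Generation by the vectors of spin `0` and `1/2` on `{|y|² = f(u)}`. -/
theorem gen_tan {φ ψ : End ℂ M} (hL : Vec L L) (l : LF L) (h : Pos L y) (t : Tan L y ξ φ ψ)
    (hq : ∀ m, qq y m = 0 → φ (φ m) = 0 → m = 0)
    (h0 : ∀ m, (∀ a, L a m = 0) → m = 0) (h1 : ∀ m, HW L 1 m → m = 0) (m : M) : m = 0 :=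
  gen (ξ := fun a => φ * ξ a) (φ := fun x => φ (φ x)) hL l h
    ⟨fun a x => by rw [End.mul_apply, End.mul_apply, t.φL, t.vec.c0],
      fun a x => by rw [End.mul_apply, End.mul_apply, End.mul_apply, t.φL, t.vec.c1, map_add],
      fun a x => by rw [End.mul_apply, End.mul_apply, End.mul_apply, t.φL, t.vec.c2, map_sub]⟩
    (t.dot h) (fun a x => by rw [End.mul_apply, End.mul_apply, t.c, map_add, t.φy])
    (fun a b hab x => by rw [End.mul_apply, End.mul_apply, t.c' a b hab, t.φy]) hq h0 h1 m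

end Vale.Agent.P286ES
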